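import Vale.Agent.P174.Loc2
import Vale.Agent.P174.Killed

/-!
# P174: Howie's conjecture is a condition on finitely generated subgroups not mapping onto `ℤ`
-/

namespace Vale.Agent.Results.P174.LocalCriterion

open Vale.Agent.P174

universe u

/-- 1. For every group `G` and every nonsingular finite system over `G`: an element of `G` that
becomes trivial in the quotient of the free product by the normal closure of the system lies in a
finitely generated subgroup `K` of `G` not mapping onto `ℤ`, and it becomes trivial already for a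
nonsingular finite system over `K`.
2. Howie's conjecture for `G` is equivalent to Howie's conjecture for the finitely generated
subgroups of `G` that do not map onto `ℤ`.
3. It passes from a normal subgroup `N` to `G` if `G ⧸ N` is locally indicable.
4. It holds for all groups with an abelian normal subgroup `N` such that `G ⧸ N` is locally
indicable.
5. It holds if each finitely generated subgroup of `G` is abelian or maps onto `ℤ`.
6. - 9. The same for systems nonsingular modulo a prime `p`, with the cyclic group of order `p` in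
place of `ℤ`. -/
theorem result :
    (∀ (G : Type u) [Group G] (g : G), Killed G g →
      ∃ (K : Subgroup G) (hg : g ∈ K), K.FG ∧ ¬ OntoZ K ∧ Killed K ⟨g, hg⟩) ∧
    (∀ (G : Type u) [Group G], Q1 G ↔ ∀ K : Subgroup G, K.FG → ¬ OntoZ K → Q1 K) ∧
    (∀ (G : Type u) [Group G] (N : Subgroup G) [N.Normal], Q1 N → LocInd (G ⧸ N) → Q1 G) ∧
    (∀ (G : Type u) [Group G] (N : Subgroup G) [N.Normal], (∀ a ∈ N, ∀ b ∈ N, a * b = b * a) →
      LocInd (G ⧸ N) → Q1 G) ∧
    (∀ (G : Type u) [Group G], (∀ K : Subgroup G, K.FG → (∀ a ∈ K, ∀ b ∈ K, a * b = b * a) ∨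
      OntoZ K) → Q1 G) ∧
    (∀ (p : ℕ), p.Prime → ∀ (G : Type u) [Group G] (g : G), KilledP p G g →
      ∃ (K : Subgroup G) (hg : g ∈ K), K.FG ∧ ¬ OntoP p K ∧ KilledP p K ⟨g, hg⟩) ∧
    (∀ (p : ℕ), p.Prime → ∀ (G : Type u) [Group G],
      SolvP p G ↔ ∀ K : Subgroup G, K.FG → ¬ OntoP p K → SolvP p K) ∧
    (∀ (p : ℕ), p.Prime → ∀ (G : Type u) [Group G] (N : Subgroup G) [N.Normal],
      SolvP p N → LocIndP p (G ⧸ N) → SolvP p G) ∧
    (∀ (p : ℕ), p.Prime → ∀ (G : Type u) [Group G] (N : Subgroup G) [N.Normal],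
      (∀ a ∈ N, ∀ b ∈ N, a * b = b * a) → LocIndP p (G ⧸ N) → SolvP p G) := by
  have hab : ∀ (G : Type u) [Group G] (K : Subgroup G), (∀ a ∈ K, ∀ b ∈ K, a * b = b * a) →
      ∀ a b : K, a * b = b * a :=
    fun G _ K h a b => Subtype.ext (h a a.2 b b.2)
  refine ⟨fun G _ g ⟨m, n, w, hw, hg⟩ => ?_,
    fun G _ => ⟨fun h K _ _ => MAIN.q1_of_injective K.subtype K.subtype_injective h,
      fun h => MAIN.q1_local fun K hK => ?_⟩,
    fun G _ N _ hN hQ => MAIN.q1_ext N hN hQ,
    fun G _ N _ hN hQ => MAIN.q1_ext N (MAIN.q1_abelian (hab G N hN)) hQ,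
    fun G _ h => MAIN.q1_local fun K hK => ?_,
    fun p hp G _ g ⟨m, n, w, hw, hg⟩ => ?_,
    fun p hp G _ => ?_, fun p hp G _ N _ hN hQ => ?_, fun p hp G _ N _ hN hQ => ?_⟩
  · obtain ⟨p₀, hp₀⟩ := big m n (fun k j => expo (w k) j) hw
    obtain ⟨p, hp1, hp2⟩ := Nat.exists_infinite_primes p₀
    have : Fact p.Prime := ⟨hp2⟩
    obtain ⟨K, hgK, hK, hKp, m', n', w', hw', hg'⟩ := TOW.localize p G w (hp₀ p hp2 hp1) g hg
    refine ⟨K, hgK, hK, fun ⟨ψ, hψ⟩ => hKp ?_, m', n', w', MAIN.nonsing_of_nonsingP p w' hw', hg'⟩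
    refine ⟨(AddMonoidHom.toMultiplicative (Int.castAddHom (ZMod p))).comp ψ, ?_⟩
    have hs : Function.Surjective (AddMonoidHom.toMultiplicative (Int.castAddHom (ZMod p))) := by
      intro y
      obtain ⟨x, hx⟩ := ZMod.intCast_surjective (Multiplicative.toAdd y)
      exact ⟨Multiplicative.ofAdd x, congrArg Multiplicative.ofAdd hx⟩
    exact hs.comp hψ
  · by_cases h1 : OntoZ K
    · exact Or.inl h1
    · exact Or.inr (h K hK h1)
  · rcases h K hK with h1 | h1
    · exact Or.inr (MAIN.q1_abelian (hab G K h1))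
    · exact Or.inl h1
  · have : Fact p.Prime := ⟨hp⟩
    exact TOW.localize p G w hw g hg
  · have : Fact p.Prime := ⟨hp⟩
    refine ⟨fun h K _ _ => CLOS.solvP_of_injective K.subtype K.subtype_injective h,
      fun h => MAIN.solvP_local p fun K hK => ?_⟩
    by_cases h1 : OntoP p K
    · exact Or.inl h1
    · exact Or.inr (h K hK h1)
  · have : Fact p.Prime := ⟨hp⟩
    exact MAIN.solvP_ext p N hN hQ
  · have : Fact p.Prime := ⟨hp⟩
    exact MAIN.solvP_ext p N (abel p N (hab G N hN)) hQ

end Vale.Agent.Results.P174.LocalCriterion
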